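import Mathlib.LinearAlgebra.LinearIndependent.Lemmas
import Mathlib.RingTheory.Noetherian.Basic
import Mathlib.Algebra.Module.Torsion.Basic
import Mathlib.LinearAlgebra.Finsupp.LinearCombination
import Mathlib.RingTheory.Ideal.Quotient.Noetherian

/-!
# P261: invariants of semilinear actions on torsion-free modules over a domain (abstract form)
-/

namespace Vale.Agent.P261.R2.H932

open Submodule

universe u

/-- Let `P` be a finitely generated torsion-free module over the domain `S/I`, and `V` a set of
vectors whose linear relations are stable under the operators `φ i`.  If all fractions of `S/I`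
fixed by the `φ i` lie in a finite set, then `V` is finite. -/
theorem finite_invariants {S : Type*} [CommRing S] [IsNoetherianRing S] (I : Ideal S) [hI : I.IsPrime]
    {P : Type u} [AddCommGroup P] [Module S P] [Module.Finite S P]
    (htf : ∀ (r : S) (m : P), r • m = 0 ↔ r ∈ I ∨ m = 0) (V : Set P) {ι : Type*} (φ : ι → S → S)
    (H : ∀ (i : ι) (α : Type u) [Fintype α] (x : α → P) (_ : ∀ j, x j ∈ V) (m : P) (_ : m ∈ V)
      (a : S) (c : α → S), a • m = ∑ j, c j • x j → φ i a • m = ∑ j, φ i (c j) • x j)
    (C : Set S) (hC : C.Finite)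
    (Fr : ∀ a b : S, b ∉ I → (∀ i, φ i a * b - a * φ i b ∈ I) → ∃ c ∈ C, a - c * b ∈ I) :
    V.Finite := by
  classical
  have htors : Module.IsTorsionBySet S P I := by
    intro x r
    exact (htf r x).2 (Or.inl r.2)
  letI inst : Module (S ⧸ I) P := htors.module
  have hmk : ∀ (r : S) (m : P), (Ideal.Quotient.mk I r) • m = r • m := fun r m => rfl
  have hfinQ : Module.Finite (S ⧸ I) P := by
    haveI : IsScalarTower S (S ⧸ I) P := htors.isScalarTower
    exact Module.Finite.of_restrictScalars_finite S (S ⧸ I) P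
  have hQd : IsDomain (S ⧸ I) := Ideal.Quotient.isDomain I
  have hnoeth : IsNoetherian (S ⧸ I) P := isNoetherian_of_isNoetherianRing_of_finite (S ⧸ I) P
  obtain ⟨s, hs, hmax⟩ := exists_maximal_linearIndepOn (S ⧸ I) (fun v : V => (v : P))
  have hli : LinearIndependent (S ⧸ I) (fun x : s => ((x : V) : P)) := hs
  haveI hsf : Finite s := hli.finite_of_isNoetherian
  have := Fintype.ofFinite s
  have hrel : ∀ m ∈ V, ∃ (a : S) (c : s → S), a ∉ I ∧ a • m = ∑ j : s, c j • ((j : V) : P) := by
    intro m hm
    by_cases hms : (⟨m, hm⟩ : V) ∈ s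
    · refine ⟨1, fun j => if j = ⟨⟨m, hm⟩, hms⟩ then 1 else 0, ?_, ?_⟩
      · exact fun h1 => hI.ne_top ((Ideal.eq_top_iff_one I).2 h1)
      · rw [one_smul, Finset.sum_eq_single (⟨⟨m, hm⟩, hms⟩ : s)]
        · simp
        · intro b _ hb
          change (if b = ⟨⟨m, hm⟩, hms⟩ then (1 : S) else 0) • _ = _
          rw [if_neg hb, zero_smul]
        · intro h0
          exact absurd (Finset.mem_univ _) h0
    · obtain ⟨a, ha, hspan⟩ := hmax _ hms
      have himg : (fun v : V => (v : P)) '' s = Set.range (fun x : s => ((x : V) : P)) := by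
        ext y
        constructor
        · rintro ⟨v, hv, rfl⟩
          exact ⟨⟨v, hv⟩, rfl⟩
        · rintro ⟨x, rfl⟩
          exact ⟨x, x.2, rfl⟩
      rw [himg, Submodule.mem_span_range_iff_exists_fun] at hspan
      obtain ⟨c, hc⟩ := hspan
      obtain ⟨a', rfl⟩ := Ideal.Quotient.mk_surjective a
      choose c' hc' using fun j => Ideal.Quotient.mk_surjective (c j)
      refine ⟨a', c', ?_, ?_⟩
      · intro h0
        exact ha (Ideal.Quotient.eq_zero_iff_mem.2 h0)
      · have h1 : (Ideal.Quotient.mk I a') • m = a' • m := hmk _ _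
        rw [← h1]
        refine hc.symm.trans (Finset.sum_congr rfl fun j _ => ?_)
        rw [← hc', hmk]
  have key : ∀ m ∈ V, ∃ d : s → S, (∀ j, d j ∈ C) ∧ m = ∑ j : s, d j • ((j : V) : P) := by
    intro m hm
    obtain ⟨a, c, ha, hac⟩ := hrel m hm
    have h2 : ∀ j : s, ∃ d ∈ C, c j - d * a ∈ I := by
      intro j
      refine Fr (c j) a ha fun i => ?_
      have h3 := H i s (fun x : s => ((x : V) : P)) (fun x => (x : V).2) m hm a c hac
      have h4 : ∑ x : s, (Ideal.Quotient.mk I (φ i (c x) * a - c x * φ i a)) • ((x : V) : P) = 0 := by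
        have h5 : ∀ x : s, (Ideal.Quotient.mk I (φ i (c x) * a - c x * φ i a)) • ((x : V) : P) =
            a • (φ i (c x) • ((x : V) : P)) - φ i a • (c x • ((x : V) : P)) := by
          intro x
          rw [hmk, sub_smul, smul_smul, smul_smul, mul_comm a, mul_comm (φ i a)]
        rw [Finset.sum_congr rfl fun x _ => h5 x, Finset.sum_sub_distrib, ← Finset.smul_sum,
          ← Finset.smul_sum, ← h3, ← hac, smul_smul, smul_smul, mul_comm, sub_self]
      have h6 := Fintype.linearIndependent_iff.1 hli
        (fun x => Ideal.Quotient.mk I (φ i (c x) * a - c x * φ i a)) h4 j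
      exact Ideal.Quotient.eq_zero_iff_mem.1 h6
    choose d hdC hd using h2
    refine ⟨d, hdC, ?_⟩
    have h7 : a • (m - ∑ j : s, d j • ((j : V) : P)) = 0 := by
      rw [smul_sub, hac, Finset.smul_sum, ← Finset.sum_sub_distrib]
      refine Finset.sum_eq_zero fun j _ => ?_
      rw [smul_smul, ← sub_smul, htf]
      left
      have h8 := hd j
      rwa [mul_comm] at h8
    rcases (htf _ _).1 h7 with h8 | h8
    · exact absurd h8 ha
    · exact sub_eq_zero.1 h8
  have hCf : {f : s → S | ∀ i, f i ∈ C}.Finite := Set.Finite.pi' fun _ => hC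
  refine (hCf.image fun d : s → S => ∑ j : s, d j • ((j : V) : P)).subset ?_
  intro m hm
  obtain ⟨d, hd, hmd⟩ := key m hm
  exact ⟨d, fun j => hd j, hmd.symm⟩

end Vale.Agent.P261.R2.H932
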