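import Mathlib.Algebra.Group.Basic
import Mathlib.Algebra.Group.Hom.Basic
import Mathlib.Data.Set.Finite.Basic
import Mathlib.Data.Fintype.Pigeonhole
import Mathlib.Algebra.Module.Basic
import Mathlib.Tactic.Abel
import Mathlib.Order.Interval.Set.Infinite
import Mathlib.Order.Interval.Finset.Nat

/-!
# P261: the torsion of `H¹` of a `q`-adically complete torsion-free module (abstract form)
-/

namespace Vale.Agent.P261.R2.H932

variable {G M : Type*} [Group G] [AddCommGroup M] (ρ : G → M →+ M) (q : ℕ)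

/-- `m` is invariant modulo `q ^ N`. -/
def AInv (N : ℕ) (m : M) : Prop := ∀ g, ∃ y, ρ g m - m = q ^ N • y

variable {ρ q}

theorem AInv.mono {N N' : ℕ} (h : N ≤ N') {m : M} (hm : AInv ρ q N' m) : AInv ρ q N m := by
  intro g
  obtain ⟨y, hy⟩ := hm g
  obtain ⟨c, rfl⟩ := Nat.exists_eq_add_of_le h
  exact ⟨q ^ c • y, by rw [hy, pow_add, mul_smul]⟩

theorem AInv.congr {N : ℕ} {m m' y : M} (hm : AInv ρ q N m) (h : m' - m = q ^ N • y) :
    AInv ρ q N m' := by
  intro g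
  obtain ⟨z, hz⟩ := hm g
  refine ⟨z + (ρ g y - y), ?_⟩
  have h1 : m' = m + q ^ N • y := by rw [← h]; abel
  rw [h1, map_add, map_nsmul, smul_add, smul_sub, ← hz]
  abel

theorem cancel (hinj : ∀ m : M, q • m = 0 → m = 0) (N : ℕ) {a b : M} (h : q ^ N • a = q ^ N • b) :
    a = b := by
  induction N with
  | zero => simpa using h
  | succ N ih =>
    apply ih
    rw [← sub_eq_zero]
    apply hinj
    rw [smul_sub, smul_smul, smul_smul, ← pow_succ', h, sub_self]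

section

variable (hinj : ∀ m : M, q • m = 0 → m = 0)
    (hsep : ∀ m : M, (∀ N : ℕ, ∃ y, m = q ^ N • y) → m = 0)
    (hcomp : ∀ x : ℕ → M, (∀ k, ∃ y, x (k + 1) - x k = q ^ k • y) →
      ∃ m, ∀ k, ∃ y, m - x k = q ^ k • y)
    (hfin : ∀ N : ℕ, ∃ S : Set M, S.Finite ∧ ∀ m, AInv ρ q N m → ∃ s ∈ S, ∃ y, m - s = q ^ N • y)

include hfin in
/-- the key step of the compactness argument. -/
theorem next (k : ℕ) (x : M) (hx : ∀ N, ∃ m, AInv ρ q N m ∧ ∃ y, m - x = q ^ k • y) :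
    ∃ x' : M, (∃ y, x' - x = q ^ k • y) ∧
      ∀ N, ∃ m, AInv ρ q N m ∧ ∃ y, m - x' = q ^ (k + 1) • y := by
  classical
  obtain ⟨S, hS, hSm⟩ := hfin (k + 1)
  choose m hm y hy using fun N => hx (k + 1 + N)
  choose s hs z hz using fun N => hSm (m N) ((hm N).mono (Nat.le_add_right _ _))
  have hSf : Finite S := hS
  obtain ⟨t, ht⟩ := Finite.exists_infinite_fiber (fun N : ℕ => (⟨s N, hs N⟩ : S))
  have hinf : ((fun N : ℕ => (⟨s N, hs N⟩ : S)) ⁻¹' {t}).Infinite := Set.infinite_coe_iff.1 ht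
  have hval : ∀ N ∈ ((fun N : ℕ => (⟨s N, hs N⟩ : S)) ⁻¹' {t}), s N = t := by
    intro N hN
    exact congrArg Subtype.val (show (⟨s N, hs N⟩ : S) = t from hN)
  refine ⟨t, ?_, ?_⟩
  · obtain ⟨N, hN⟩ := hinf.nonempty
    refine ⟨y N - q • z N, ?_⟩
    have h1 := hz N
    rw [hval N hN] at h1
    rw [smul_sub, ← hy N, smul_smul, ← pow_succ, ← h1]
    abel
  · intro N
    obtain ⟨N', hN', hlt⟩ := hinf.exists_gt N
    refine ⟨m N', (hm N').mono (by omega), z N', ?_⟩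
    have h1 := hz N'
    rwa [hval N' hN'] at h1

include hsep hcomp hfin in
/-- the vectors which are invariant modulo a high power of `q` are congruent to invariant vectors
modulo `q`. -/
theorem exists_level_one : ∃ N0 : ℕ, ∀ m, AInv ρ q N0 m →
    ∃ m0 y, (∀ g, ρ g m0 = m0) ∧ m - m0 = q • y := by
  classical
  by_contra hcon
  push Not at hcon
  choose m hm hbad using hcon
  obtain ⟨S, hS, hSm⟩ := hfin 1
  choose s hs z hz using fun N => hSm (m (1 + N)) ((hm (1 + N)).mono (Nat.le_add_right _ _))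
  have hSf : Finite S := hS
  obtain ⟨t, ht⟩ := Finite.exists_infinite_fiber (fun N : ℕ => (⟨s N, hs N⟩ : S))
  have hinf : ((fun N : ℕ => (⟨s N, hs N⟩ : S)) ⁻¹' {t}).Infinite := Set.infinite_coe_iff.1 ht
  have hval : ∀ N ∈ ((fun N : ℕ => (⟨s N, hs N⟩ : S)) ⁻¹' {t}), s N = t := by
    intro N hN
    exact congrArg Subtype.val (show (⟨s N, hs N⟩ : S) = t from hN)
  have h0 : ∀ N, ∃ m, AInv ρ q N m ∧ ∃ y, m - (t : M) = q ^ 1 • y := by
    intro N
    obtain ⟨N', hN', hlt⟩ := hinf.exists_gt N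
    refine ⟨m (1 + N'), (hm (1 + N')).mono (by omega), z N', ?_⟩
    have h1 := hz N'
    rwa [hval N' hN'] at h1
  -- the sequence
  let T : ℕ → Type _ := fun k =>
    {x : M // ∀ N, ∃ m, AInv ρ q N m ∧ ∃ y, m - x = q ^ (k + 1) • y}
  let x : ∀ k, T k := fun k => Nat.rec (motive := fun k => T k) ⟨t, h0⟩
    (fun k xk => ⟨(next hfin (k + 1) xk.1 xk.2).choose,
      (next hfin (k + 1) xk.1 xk.2).choose_spec.2⟩) k
  have hx : ∀ k, ∃ y, (x (k + 1)).1 - (x k).1 = q ^ (k + 1) • y := fun k =>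
    (next hfin (k + 1) (x k).1 (x k).2).choose_spec.1
  obtain ⟨l, hl⟩ := hcomp (fun k => (x k).1) (fun k => by
    obtain ⟨y, hy⟩ := hx k
    exact ⟨q • y, by rw [hy, smul_smul, ← pow_succ]⟩)
  have hlinv : ∀ g, ρ g l = l := by
    intro g
    rw [← sub_eq_zero]
    apply hsep
    intro k
    obtain ⟨y, hy⟩ := hl k
    obtain ⟨m', hm', y', hy'⟩ := (x k).2 k
    have h2 : AInv ρ q k (x k).1 := by
      refine hm'.congr (y := -(q • y')) ?_
      rw [smul_neg, smul_smul, ← pow_succ, ← hy']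
      abel
    exact (h2.congr hy) g
  obtain ⟨N, hN⟩ := hinf.nonempty
  have h3 := hz N
  rw [hval N hN] at h3
  obtain ⟨y1, hy1⟩ := hl 1
  obtain ⟨y2, hy2⟩ := hx 0
  have h4 : (x 0).1 = (t : M) := rfl
  apply hbad (1 + N) l (z N - (y1 + y2)) hlinv
  simp only [pow_one, zero_add] at h3 hy1 hy2
  rw [smul_sub, smul_add, ← h3, ← hy1, ← hy2, h4]
  abel_nf

include hinj hsep hcomp hfin in
theorem exists_level : ∃ N0 : ℕ, ∀ (N : ℕ) (m : M), AInv ρ q (N0 + N) m →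
    ∃ m0 m1, (∀ g, ρ g m0 = m0) ∧ AInv ρ q N0 m1 ∧ m = m0 + q ^ N • m1 := by
  obtain ⟨N0, hN0⟩ := exists_level_one hsep hcomp hfin
  refine ⟨N0, fun N => ?_⟩
  induction N with
  | zero =>
    intro m hm
    exact ⟨0, m, fun g => map_zero _, hm, by rw [pow_zero, one_smul, zero_add]⟩
  | succ N ih =>
    intro m hm
    obtain ⟨m0, m', h1, h2⟩ := hN0 m (hm.mono (Nat.le_add_right _ _))
    have h3 : AInv ρ q (N0 + N) m' := by
      intro g
      obtain ⟨y, hy⟩ := hm g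
      refine ⟨y, ?_⟩
      apply cancel hinj 1
      rw [pow_one, smul_sub, ← map_nsmul, ← h2, smul_smul, ← pow_succ', map_sub, h1]
      rw [show N0 + N + 1 = N0 + (N + 1) by omega, ← hy]
      abel
    obtain ⟨m0', m1, h4, h5, h6⟩ := ih m' h3
    refine ⟨m0 + q • m0', m1, fun g => by rw [map_add, map_nsmul, h1, h4], h5, ?_⟩
    have h7 : m = m0 + q • m' := by rw [← h2]; abel
    rw [h7, h6, smul_add, smul_smul, ← pow_succ', add_assoc]

include hinj hsep hcomp hfin in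
/-- The torsion of `H¹` is finite. -/
theorem H1_tors_finite (Z : Set (G → M)) :
    ∃ S : Set (G → M), S.Finite ∧ S ⊆ Z ∧ ∀ c ∈ Z,
      (∃ (N : ℕ) (m : M), ∀ g, q ^ N • c g = ρ g m - m) →
        ∃ c' ∈ S, ∃ m, ∀ g, c g - c' g = ρ g m - m := by
  classical
  obtain ⟨N0, hN0⟩ := exists_level hinj hsep hcomp hfin
  obtain ⟨S0, hS0, hS0m⟩ := hfin N0
  let Q : M → (G → M) → Prop := fun s c => c ∈ Z ∧ ∃ m y, (∀ g, q ^ N0 • c g = ρ g m - m) ∧
    m - s = q ^ N0 • y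
  let f : M → (G → M) := fun s => if h : ∃ c, Q s c then h.choose else 0
  refine ⟨f '' {s ∈ S0 | ∃ c, Q s c}, (hS0.subset (Set.sep_subset _ _)).image f, ?_, ?_⟩
  · rintro _ ⟨s, ⟨-, hs⟩, rfl⟩
    simp only [f, dif_pos hs]
    exact hs.choose_spec.1
  · rintro c hc ⟨N, m, hm⟩
    have h1 : AInv ρ q (N0 + N) (q ^ N0 • m) := by
      intro g
      refine ⟨c g, ?_⟩
      rw [map_nsmul, ← smul_sub, ← hm, smul_smul, ← pow_add]
    obtain ⟨m0, m1, h2, h3, h4⟩ := hN0 N _ h1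
    have h5 : ∀ g, q ^ N0 • c g = ρ g m1 - m1 := by
      intro g
      apply cancel hinj N
      have h6 : q ^ N • m1 = q ^ N0 • m - m0 := by rw [h4]; abel
      rw [smul_smul, ← pow_add, smul_sub, ← map_nsmul, h6, map_sub, h2, map_nsmul,
        sub_sub_sub_cancel_right, ← smul_sub, ← hm, smul_smul, ← pow_add, add_comm]
    obtain ⟨s, hs, y, hy⟩ := hS0m m1 h3
    have hex : ∃ c, Q s c := ⟨c, hc, m1, y, h5, hy⟩
    refine ⟨f s, ⟨s, ⟨hs, hex⟩, rfl⟩, ?_⟩
    have hfs : f s = hex.choose := by simp only [f, dif_pos hex]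
    obtain ⟨-, m2, y2, h7, h8⟩ := hex.choose_spec
    rw [← hfs] at h7
    refine ⟨y - y2, fun g => ?_⟩
    apply cancel hinj N0
    have h9 : q ^ N0 • (y - y2) = m1 - m2 := by rw [smul_sub, ← hy, ← h8]; abel
    rw [smul_sub, smul_sub, h5, h7, ← map_nsmul, h9, map_sub]
    abel

end

end Vale.Agent.P261.R2.H932
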